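import Vale.Agent.P144.Defs
import Mathlib.Analysis.InnerProductSpace.PiL2
import Mathlib.MeasureTheory.Measure.Lebesgue.Complex
import Mathlib.MeasureTheory.Measure.Haar.InnerProductSpace
import Mathlib.Topology.ContinuousMap.Bounded.Basic

/-!
The rescaled spin field in the plane, smeared with test functions.
-/

namespace Vale.Agent.P144F58

open Filter Topology MeasureTheory Vale.Agent.P144

/-- Test functions: measurable, bounded, of bounded support. -/
def Test (f : ℂ → ℝ) : Prop :=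
  Measurable f ∧ (∃ B, ∀ x, |f x| ≤ B) ∧ Bornology.IsBounded (Function.support f)

/-- The rescaled spin field of mesh `a`, integrated against `f`. -/
noncomputable def smear (a : ℝ) (f : ℂ → ℝ) (σ : Config) : ℝ :=
  ∫ x, f x * (a ^ (-(1 / 8) : ℝ) * sp (σ (fl a x)))

/-- All mixed moments of the smeared field converge to the integrals of `Z ^ n * C` over `ℂ ^ n`,
collision diagonals included. -/
def Mom (μ : Measure Config) (Z : ℝ) (C : Pts → ℝ) : Prop :=
  ∀ n > 0, ∀ f : Fin n → ℂ → ℝ, (∀ i, Test (f i)) →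
    Integrable (fun x : Fin n → ℂ => (∏ i, f i (x i)) * C ⟨n, 0, x, ![], ![]⟩) ∧
    Tendsto (fun a => ∫ σ, ∏ i, smear a (f i) σ ∂μ) (𝓝[>] 0)
      (𝓝 (Z ^ n * ∫ x : Fin n → ℂ, (∏ i, f i (x i)) * C ⟨n, 0, x, ![], ![]⟩))

/-- `ν` is a probability measure whose mixed moments are the integrals of `Z ^ n * C`. -/
def HasMom (Z : ℝ) (C : Pts → ℝ) {k : ℕ} (f : Fin k → ℂ → ℝ)
    (ν : Measure (EuclideanSpace ℝ (Fin k))) : Prop :=
  IsProbabilityMeasure ν ∧ ∀ n > 0, ∀ i : Fin n → Fin k,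
    Integrable (fun y : EuclideanSpace ℝ (Fin k) => ∏ j, y (i j)) ν ∧
    ∫ y, ∏ j, y (i j) ∂ν
      = Z ^ n * ∫ x : Fin n → ℂ, (∏ j, f (i j) (x j)) * C ⟨n, 0, x, ![], ![]⟩

/-- The smeared field converges in law: the joint law of finitely many smeared fields converges
weakly to the only probability measure with the limiting moments. -/
def Law (μ : Measure Config) (Z : ℝ) (C : Pts → ℝ) : Prop :=
  ∀ (k : ℕ) (f : Fin k → ℂ → ℝ), (∀ i, Test (f i)) →
    ∃ ν, HasMom Z C f ν ∧ (∀ ν', HasMom Z C f ν' → ν' = ν) ∧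
      ∀ F : BoundedContinuousFunction (EuclideanSpace ℝ (Fin k)) ℝ,
        Tendsto (fun a => ∫ σ, F (WithLp.toLp 2 fun i => smear a (f i) σ) ∂μ) (𝓝[>] 0)
          (𝓝 (∫ y, F y ∂ν))

end Vale.Agent.P144F58
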