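import Vale.Agent.P144.Bdl.B1
import Mathlib.Analysis.SpecialFunctions.Log.Deriv

/-!
The Griffiths, Hurst and Sherman inequality bounds the exponential moments by Gaussian ones.
-/

namespace Vale.Agent.P144F58

open Vale.Agent.P144

variable {ι : Type*} [Fintype ι] [DecidableEq ι]

theorem ev_flip (K : ι → ι → ℝ) (f : (ι → Bool) → ℝ) :
    ev K (fun _ => 0) (fun s => f fun i => !(s i)) = ev K (fun _ => 0) f := by
  have hw : ∀ s : ι → Bool, wt K (fun _ => 0) (fun i => !(s i)) = wt K (fun _ => 0) s := by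
    intro s
    unfold wt ex
    simp only [sp_not, neg_mul_neg, zero_mul]
  unfold ev
  congr 1
  refine Fintype.sum_equiv (Function.Involutive.toPerm (fun (s : ι → Bool) i => !(s i))
    fun s => by funext i; simp) _ _ fun s => ?_
  exact congrArg (fun x => f (fun i => !(s i)) * x) (hw s).symm

omit [DecidableEq ι] in
theorem lin_flip (w : ι → ℝ) (s : ι → Bool) : lin w (fun i => !(s i)) = - lin w s := by
  unfold lin
  simp only [sp_not, mul_neg, Finset.sum_neg_distrib]

theorem le_of_deriv {g g' : ℝ → ℝ} (hd : ∀ t, HasDerivAt g (g' t) t) (h : ∀ t > 0, g' t ≤ 0)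
    {t : ℝ} (ht : 0 ≤ t) : g t ≤ g 0 := by
  refine antitoneOn_of_deriv_nonpos (convex_Ici 0)
    (fun t _ => (hd t).continuousAt.continuousWithinAt)
    (fun t _ => (hd t).differentiableAt.differentiableWithinAt) (fun t ht => ?_)
    Set.self_mem_Ici ht ht
  rw [(hd t).deriv]
  exact h t (by simpa using ht)

theorem ev_exp_pos {K : ι → ι → ℝ} (hK : ∀ i j, 0 ≤ K i j) {w : ι → ℝ} (hw : ∀ i, 0 ≤ w i)
    {t : ℝ} (ht : 0 ≤ t) :
    ev K (fun _ => 0) (fun s => Real.exp (t * lin w s))
      ≤ Real.exp (t ^ 2 / 2 * ev K (fun _ => 0) fun s => lin w s ^ 2) := by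
  set h : ι → ℝ := fun _ => 0 with hh
  set v := ev K h fun s => lin w s ^ 2 with hv
  have h00 : (fun i => h i + 0 * w i) = h := by funext i; simp
  have m0 : ev K h (lin w) = 0 := by
    have h1 := ev_flip K (lin w)
    simp only [lin_flip] at h1
    have h2 := ev_const_mul K h (-1) (lin w)
    simp only [neg_one_mul] at h2
    rw [← hh] at h1
    linarith
  have sym : ∀ k : ι → ℝ, cov K k (lin w) (lin w) = ∑ z, w z * cov K k (sg z) (lin w) := by
    intro k
    refine (cov_linear K k (lin w) w).trans (Finset.sum_congr rfl fun z _ => ?_)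
    unfold cov
    simp only [mul_comm]
  have s1 : ∀ t ≥ 0, cov K (fun i => h i + t * w i) (lin w) (lin w) ≤ v := by
    intro t ht
    have h1 : cov K h (lin w) (lin w) = v := by
      unfold cov
      rw [m0, hv]
      simp only [sq, mul_zero, sub_zero]
    rw [← h1, sym, sym]
    refine Finset.sum_le_sum fun z _ => mul_le_mul_of_nonneg_left ?_ (hw z)
    have h2 := le_of_deriv (hasDerivAt_cov K h w z) (fun u hu => third_cumulant_nonpos hK
      (fun i => add_nonneg le_rfl (mul_nonneg hu.le (hw i))) hw z) ht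
    rwa [h00] at h2
  have s2 : ∀ t ≥ 0, ev K (fun i => h i + t * w i) (lin w) ≤ t * v := by
    intro t ht
    have h2 := le_of_deriv (g := fun t => ev K (fun i => h i + t * w i) (lin w) - t * v)
      (fun u => (hasDerivAt_ev K h w (lin w) u).sub ((hasDerivAt_id u).mul_const v))
      (fun u hu => by have := s1 u hu.le; unfold lin at this; unfold lin; linarith) ht
    simp only [h00, m0] at h2
    linarith
  have hZ : ∀ u : ℝ, HasDerivAt (fun t : ℝ => ∑ s, wt K (fun i => h i + t * w i) s)
      (∑ s, ((∑ i, w i * sp (s i)) * wt K (fun i => h i + u * w i) s)) u :=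
    fun u => HasDerivAt.fun_sum fun s _ => hasDerivAt_wt K h w u s
  have s3 := le_of_deriv
    (g := fun t => Real.log (∑ s, wt K (fun i => h i + t * w i) s) - t ^ 2 / 2 * v)
    (fun u => ((hZ u).log (Z_pos K _).ne').sub (((hasDerivAt_pow 2 u).div_const 2).mul_const v))
    (fun u hu => by
      have h1 := s2 u hu.le
      unfold ev lin at h1
      have h2 : ((2 : ℕ) : ℝ) * u ^ (2 - 1) / 2 * v = u * v := by norm_num
      rw [h2]
      linarith) ht
  simp only [h00] at s3
  have e : ev K h (fun s => Real.exp (t * lin w s))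
      = (∑ s, wt K (fun i => h i + t * w i) s) / ∑ s, wt K h s := by
    unfold ev
    congr 1
    refine Finset.sum_congr rfl fun s _ => ?_
    unfold wt lin
    rw [ex_line, Real.exp_add, mul_comm]
  rw [e, ← Real.log_le_iff_le_exp (div_pos (Z_pos K _) (Z_pos K _)),
    Real.log_div (Z_pos K _).ne' (Z_pos K _).ne']
  linarith

/-- Exponential moments of a nonnegative combination of spins. -/
theorem ev_exp {K : ι → ι → ℝ} (hK : ∀ i j, 0 ≤ K i j) {w : ι → ℝ} (hw : ∀ i, 0 ≤ w i) (t : ℝ) :
    ev K (fun _ => 0) (fun s => Real.exp (t * lin w s))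
      ≤ Real.exp (t ^ 2 / 2 * ev K (fun _ => 0) fun s => lin w s ^ 2) := by
  rcases le_total 0 t with ht | ht
  · exact ev_exp_pos hK hw ht
  · have h1 := ev_exp_pos hK hw (neg_nonneg.2 ht)
    rw [← ev_flip K fun s => Real.exp (-t * lin w s)] at h1
    simpa only [lin_flip, neg_mul_neg, neg_sq] using h1

end Vale.Agent.P144F58
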