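import Vale.Agent.P144F58.Defs
import Vale.Agent.P144.Bdl.B1
import Mathlib.MeasureTheory.Function.Floor
import Mathlib.MeasureTheory.Integral.Prod

/-!
The smeared spin field: measurability, splitting into signs, finite sums of spins.
-/

set_option autoImplicit false
set_option linter.all false

namespace Vale.Agent.P144F58

open Filter Topology MeasureTheory Vale.Agent.P144

theorem fl_meas (a : ℝ) : Measurable (fl a) :=
  (Int.measurable_floor.comp (Complex.measurable_re.div_const a)).prodMk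
    (Int.measurable_floor.comp (Complex.measurable_im.div_const a))

theorem Test.int {f : ℂ → ℝ} (hf : Test f) : Integrable f := by
  obtain ⟨hm, ⟨B, hB⟩, hs⟩ := hf
  rw [← integrableOn_iff_integrable_of_support_subset (subset_closure (s := Function.support f))]
  exact Measure.integrableOn_of_bounded (M := B) hs.closure.measure_lt_top.ne
    hm.aestronglyMeasurable (Eventually.of_forall hB)

theorem Test.of_le {f g : ℂ → ℝ} (hf : Test f) (hm : Measurable g) (h : ∀ x, |g x| ≤ |f x|) :
    Test g := by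
  obtain ⟨-, ⟨B, hB⟩, hs⟩ := hf
  refine ⟨hm, ⟨B, fun x => (h x).trans (hB x)⟩, hs.subset fun x hx h0 => hx ?_⟩
  have h1 := h x
  rw [h0, abs_zero] at h1
  exact abs_nonpos_iff.1 h1

theorem spin_meas (a : ℝ) :
    Measurable fun p : ℂ × Config => a ^ (-(1 / 8) : ℝ) * sp (p.2 (fl a p.1)) := by
  have h1 : Measurable fun q : Config × Site => q.1 q.2 :=
    measurable_from_prod_countable_left fun t => measurable_pi_apply t
  have h2 : Measurable fun p : ℂ × Config => p.2 (fl a p.1) :=
    h1.comp (f := fun p : ℂ × Config => (p.2, fl a p.1))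
      (measurable_snd.prodMk ((fl_meas a).comp measurable_fst))
  exact ((measurable_of_countable sp).comp h2).const_mul _

theorem smear_bd (f : ℂ → ℝ) (a : ℝ) (σ : Config) (x : ℂ) :
    ‖f x * (a ^ (-(1 / 8) : ℝ) * sp (σ (fl a x)))‖ ≤ |a ^ (-(1 / 8) : ℝ)| * |f x| := by
  rw [Real.norm_eq_abs, abs_mul, abs_mul, abs_sp, mul_one, mul_comm]

theorem smear_int {f : ℂ → ℝ} (hf : Test f) (a : ℝ) (σ : Config) :
    Integrable fun x => f x * (a ^ (-(1 / 8) : ℝ) * sp (σ (fl a x))) :=
  (hf.int.abs.const_mul _).mono'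
    (hf.1.mul ((spin_meas a).comp (f := fun x : ℂ => (x, σ))
      (measurable_id.prodMk measurable_const))).aestronglyMeasurable
    (Eventually.of_forall (smear_bd f a σ))

theorem smear_meas {f : ℂ → ℝ} (hf : Test f) (a : ℝ) :
    Measurable (smear a f) ∧ ∃ B, ∀ σ, |smear a f σ| ≤ B := by
  have mg : Measurable fun p : ℂ × Config =>
      f p.1 * (a ^ (-(1 / 8) : ℝ) * sp (p.2 (fl a p.1))) :=
    (hf.1.comp measurable_fst).mul (spin_meas a)
  exact ⟨(mg.stronglyMeasurable.integral_prod_left' (μ := volume)).measurable, _, fun σ =>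
    norm_integral_le_of_norm_le (hf.int.abs.const_mul _) (Eventually.of_forall (smear_bd f a σ))⟩

theorem smear_split {f : ℂ → ℝ} (hf : Test f) :
    Test (fun x => max (f x) 0) ∧ Test (fun x => max (-f x) 0) ∧
      ∀ a σ, smear a f σ =
        smear a (fun x => max (f x) 0) σ - smear a (fun x => max (-f x) 0) σ := by
  have h1 : Test fun x => max (f x) 0 := hf.of_le (hf.1.max measurable_const) fun x => by
    rw [abs_of_nonneg (le_max_right _ _)]
    exact max_le (le_abs_self _) (abs_nonneg _)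
  have h2 : Test fun x => max (-f x) 0 := hf.of_le (hf.1.neg.max measurable_const) fun x => by
    rw [abs_of_nonneg (le_max_right _ _)]
    exact max_le (neg_le_abs _) (abs_nonneg _)
  refine ⟨h1, h2, fun a σ => ?_⟩
  unfold smear
  rw [← integral_sub (smear_int h1 a σ) (smear_int h2 a σ)]
  refine integral_congr_ae (Eventually.of_forall fun x => ?_)
  show _ = max (f x) 0 * _ - max (-f x) 0 * _
  rw [← sub_mul, max_zero_sub_max_neg_zero_eq_self]

theorem smear_sum {f : ℂ → ℝ} {a : ℝ} (hf : Test f) (h0 : ∀ x, 0 ≤ f x) (ha : 0 < a) :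
    ∃ (W : Finset Site) (w : Site → ℝ), (∀ x, 0 ≤ w x) ∧
      ∀ σ, smear a f σ = ∑ x ∈ W, w x * sp (σ x) := by
  classical
  obtain ⟨R, hR⟩ := hf.2.2.exists_norm_le
  have hA : (0 : ℝ) ≤ a ^ (-(1 / 8) : ℝ) := Real.rpow_nonneg ha.le _
  have k : ∀ s : ℝ, |s| ≤ R → ⌊-R / a⌋ ≤ ⌊s / a⌋ ∧ ⌊s / a⌋ ≤ ⌊R / a⌋ := fun s hs =>
    ⟨Int.floor_mono (div_le_div_of_nonneg_right (abs_le.1 hs).1 ha.le),
      Int.floor_mono (div_le_div_of_nonneg_right (abs_le.1 hs).2 ha.le)⟩
  have hW : ∀ x, f x ≠ 0 → fl a x ∈ Finset.Icc (⌊-R / a⌋, ⌊-R / a⌋) (⌊R / a⌋, ⌊R / a⌋) := by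
    intro x hx
    have h1 := k _ ((Complex.abs_re_le_norm x).trans (hR x hx))
    have h2 := k _ ((Complex.abs_im_le_norm x).trans (hR x hx))
    exact Finset.mem_Icc.2 ⟨⟨h1.1, h2.1⟩, h1.2, h2.2⟩
  have ht : ∀ t : Site, Test fun x => if fl a x = t then f x else 0 := fun t =>
    hf.of_le (Measurable.ite (fl_meas a (measurableSet_singleton t)) hf.1 measurable_const)
      fun x => by
        split_ifs
        · exact le_rfl
        · rw [abs_zero]
          exact abs_nonneg _
  refine ⟨Finset.Icc (⌊-R / a⌋, ⌊-R / a⌋) (⌊R / a⌋, ⌊R / a⌋),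
    fun t => (∫ x, if fl a x = t then f x else 0) * a ^ (-(1 / 8) : ℝ),
    fun t => mul_nonneg (integral_nonneg fun x => ?_) hA, fun σ => ?_⟩
  · show 0 ≤ if fl a x = t then f x else 0
    split_ifs
    exacts [h0 x, le_rfl]
  · simp only [← integral_mul_const]
    rw [← integral_finsetSum _ fun t _ => ((ht t).int.mul_const _).mul_const _]
    refine integral_congr_ae (Eventually.of_forall fun x => ?_)
    simp only [ite_mul, zero_mul, Finset.sum_ite_eq]
    split_ifs with h
    · rw [mul_assoc]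
    · rw [not_not.1 fun h1 => h (hW x h1), zero_mul]

end Vale.Agent.P144F58
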