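import Vale.Agent.P144F58.Moment
import Vale.Agent.P144F58.Sum
import Vale.Agent.P144W.Sub13

/-!
Convergence in law of the smeared spin field.
-/

namespace Vale.Agent.P144F58

open Filter Topology MeasureTheory Vale.Agent.P144
open scoped Nat

/-- bounded measurable observables -/
def BM (X : Config → ℝ) : Prop := Measurable X ∧ ∃ B, ∀ σ, |X σ| ≤ B

theorem BM.int {X : Config → ℝ} (h : BM X) (μ : Measure Config) [IsFiniteMeasure μ] :
    Integrable X μ := by
  obtain ⟨hm, B, hB⟩ := h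
  exact Integrable.of_bound hm.aestronglyMeasurable B (Eventually.of_forall hB)

theorem BM.const (c : ℝ) : BM fun _ => c := ⟨measurable_const, |c|, fun _ => le_rfl⟩

theorem BM.add {X Y : Config → ℝ} (h : BM X) (h' : BM Y) : BM fun σ => X σ + Y σ := by
  obtain ⟨hm, B, hB⟩ := h
  obtain ⟨hm', B', hB'⟩ := h'
  exact ⟨hm.add hm', B + B', fun σ => (abs_add_le _ _).trans (add_le_add (hB σ) (hB' σ))⟩

theorem BM.mul {X Y : Config → ℝ} (h : BM X) (h' : BM Y) : BM fun σ => X σ * Y σ := by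
  obtain ⟨hm, B, hB⟩ := h
  obtain ⟨hm', B', hB'⟩ := h'
  refine ⟨hm.mul hm', B * B', fun σ => ?_⟩
  rw [abs_mul]
  exact mul_le_mul (hB σ) (hB' σ) (abs_nonneg _) ((abs_nonneg _).trans (hB σ))

theorem BM.prod {ι : Type*} (T : Finset ι) {X : ι → Config → ℝ} (h : ∀ i, BM (X i)) :
    BM fun σ => ∏ i ∈ T, X i σ := by
  classical
  induction T using Finset.induction_on with
  | empty => simpa using BM.const 1
  | insert i T hi ih => simpa only [Finset.prod_insert hi] using (h i).mul ih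

theorem BM.pow {X : Config → ℝ} (h : BM X) (n : ℕ) : BM fun σ => X σ ^ n := by
  simpa using BM.prod (Finset.range n) fun _ => h

theorem BM.exp {X : Config → ℝ} (h : BM X) : BM fun σ => Real.exp (X σ) := by
  obtain ⟨hm, B, hB⟩ := h
  refine ⟨hm.exp, Real.exp B, fun σ => ?_⟩
  rw [abs_of_pos (Real.exp_pos _)]
  exact Real.exp_le_exp.2 ((le_abs_self _).trans (hB σ))

/-- all exponential moments stay bounded as the mesh tends to zero -/
def EM (μ : Measure Config) (X : ℝ → Config → ℝ) : Prop :=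
  (∀ a, BM (X a)) ∧ ∀ s : ℝ, ∃ A, ∀ᶠ a in 𝓝[>] (0:ℝ), ∫ σ, Real.exp (s * X a σ) ∂μ ≤ A

variable {μ : Measure Config} [IsProbabilityMeasure μ]

theorem EM.zero : EM μ fun _ _ => 0 :=
  ⟨fun _ => BM.const 0, fun _ => ⟨1, Eventually.of_forall fun _ => by simp⟩⟩

omit [IsProbabilityMeasure μ] in
theorem EM.smul {X : ℝ → Config → ℝ} (h : EM μ X) (c : ℝ) : EM μ fun a σ => c * X a σ :=
  ⟨fun a => (BM.const c).mul (h.1 a), fun s => by simpa only [mul_assoc] using h.2 (s * c)⟩

theorem EM.add {X Y : ℝ → Config → ℝ} (h : EM μ X) (h' : EM μ Y) :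
    EM μ fun a σ => X a σ + Y a σ := by
  refine ⟨fun a => (h.1 a).add (h'.1 a), fun s => ?_⟩
  obtain ⟨A, hA⟩ := h.2 (2 * s)
  obtain ⟨B, hB⟩ := h'.2 (2 * s)
  refine ⟨A + B, ?_⟩
  filter_upwards [hA, hB] with a hA hB
  have i1 := ((BM.const (2 * s)).mul (h.1 a)).exp.int μ
  have i2 := ((BM.const (2 * s)).mul (h'.1 a)).exp.int μ
  refine le_trans ?_ (add_le_add hA hB)
  rw [← integral_add i1 i2]
  refine integral_mono (((BM.const s).mul ((h.1 a).add (h'.1 a))).exp.int μ) (i1.add i2)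
    fun σ => ?_
  have p1 := Real.exp_pos (2 * s * X a σ)
  have p2 := Real.exp_pos (2 * s * Y a σ)
  rcases le_total (s * X a σ) (s * Y a σ) with h1 | h1
  · have := Real.exp_le_exp.2 (show s * (X a σ + Y a σ) ≤ 2 * s * Y a σ by linarith)
    linarith
  · have := Real.exp_le_exp.2 (show s * (X a σ + Y a σ) ≤ 2 * s * X a σ by linarith)
    linarith

theorem EM.sum {ι : Type*} (T : Finset ι) {X : ι → ℝ → Config → ℝ} (h : ∀ i, EM μ (X i)) :
    EM μ fun a σ => ∑ i ∈ T, X i a σ := by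
  classical
  induction T using Finset.induction_on with
  | empty => simpa using EM.zero
  | insert i T hi ih => simpa only [Finset.sum_insert hi] using (h i).add ih

theorem EM.growth {X : ℝ → Config → ℝ} (h : EM μ X) {m : ℕ → ℝ}
    (hm : ∀ q > 0, Tendsto (fun a => ∫ σ, X a σ ^ (2 * q) ∂μ) (𝓝[>] 0) (𝓝 (m q))) :
    Tendsto (fun q : ℕ => m q / (2 * q)!) atTop (𝓝 0) := by
  obtain ⟨A, hA⟩ := h.2 2
  obtain ⟨B, hB⟩ := h.2 (-2)
  have h1 : Tendsto (fun q : ℕ => (A + B) * (1 / 4 : ℝ) ^ q) atTop (𝓝 0) := by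
    simpa using (tendsto_pow_atTop_nhds_zero_of_lt_one (r := (1 / 4 : ℝ)) (by norm_num)
      (by norm_num)).const_mul (A + B)
  refine squeeze_zero' ?_ ?_ h1
  · filter_upwards [eventually_gt_atTop 0] with q hq
    refine div_nonneg (ge_of_tendsto' (hm q hq) fun a => integral_nonneg fun σ => ?_)
      (by positivity)
    exact (even_two_mul q).pow_nonneg _
  · filter_upwards [eventually_gt_atTop 0] with q hq
    refine le_of_tendsto ((hm q hq).div_const ((2 * q)! : ℝ)) ?_
    filter_upwards [hA, hB] with a hA hB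
    have i1 := ((BM.const 2).mul (h.1 a)).exp.int μ
    have i2 := ((BM.const (-2)).mul (h.1 a)).exp.int μ
    refine le_trans ?_ (mul_le_mul_of_nonneg_right (add_le_add hA hB) (by positivity))
    rw [← integral_add i1 i2, ← integral_div, ← integral_mul_const]
    refine integral_mono ((((h.1 a).pow _).int μ).div_const _) ((i1.add i2).mul_const _)
      fun σ => ?_
    have e1 := Real.pow_div_factorial_le_exp |2 * X a σ| (abs_nonneg _) (2 * q)
    rw [(even_two_mul q).pow_abs, mul_pow, pow_mul (2:ℝ)] at e1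
    have e2 : Real.exp |2 * X a σ| ≤ Real.exp (2 * X a σ) + Real.exp (-2 * X a σ) := by
      have p1 := Real.exp_pos (2 * X a σ)
      have p2 := Real.exp_pos (-2 * X a σ)
      rcases abs_cases (2 * X a σ) with h1 | h1
      · rw [h1.1]; linarith
      · rw [h1.1, neg_mul]; rw [neg_mul] at p2; linarith
    have e3 : X a σ ^ (2 * q) / (2 * q)!
        = (2 ^ 2) ^ q * X a σ ^ (2 * q) / (2 * q)! * (1 / 4 : ℝ) ^ q := by
      have e4 : ((2:ℝ) ^ 2) ^ q * (1 / 4 : ℝ) ^ q = 1 := by
        rw [← mul_pow]; norm_num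
      linear_combination (-(X a σ ^ (2 * q) / (2 * q)!)) * e4
    change X a σ ^ (2 * q) / (2 * q)! ≤ _
    rw [e3]
    exact mul_le_mul_of_nonneg_right (e1.trans e2) (by positivity)

/-- The free critical state has bounded exponential moments. -/
theorem free_em {J : ℝ} (hJ : 0 < J) {C : Pts → ℝ}
    (h0 : ∀ μ₀, IsPlaneState J 0 (fun _ => 0) (Kc / J) μ₀ → Mom μ₀ 1 C) :
    ∃ μ₀ : Measure Config, IsProbabilityMeasure μ₀ ∧ Mom μ₀ 1 C ∧
      ∀ f, Test f → EM μ₀ fun a => smear a f := by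
  obtain ⟨μ₀, hμ, hl⟩ := P144W.C13.subg hJ
  have := hμ.1
  have pos : ∀ f, Test f → (∀ x, 0 ≤ f x) → EM μ₀ fun a => smear a f := by
    intro f hf h
    refine ⟨smear_meas hf, fun s => ?_⟩
    obtain ⟨c, h2⟩ : ∃ c, Tendsto (fun a => ∫ σ, smear a f σ ^ 2 ∂μ₀) (𝓝[>] 0) (𝓝 c) :=
      ⟨_, by simpa using (h0 μ₀ hμ 2 two_pos (fun _ => f) fun _ => hf).2⟩
    refine ⟨Real.exp (s ^ 2 * (c + 1) / 2), ?_⟩
    filter_upwards [h2.eventually (gt_mem_nhds (lt_add_one c)), self_mem_nhdsWithin] with a h3 ha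
    refine (hl a ha f hf h s).trans (Real.exp_le_exp.2 ?_)
    have := mul_le_mul_of_nonneg_left h3.le (sq_nonneg s)
    linarith
  refine ⟨μ₀, this, h0 μ₀ hμ, fun f hf => ?_⟩
  obtain ⟨h1, h2, e⟩ := smear_split hf
  have h3 := (pos _ h1 fun x => le_max_right _ _).add ((pos _ h2 fun x => le_max_right _ _).smul (-1))
  have h4 : (fun a => smear a f) = fun a σ => smear a (fun x => max (f x) 0) σ
      + -1 * smear a (fun x => max (-f x) 0) σ := by
    funext a σ
    rw [e]
    ring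
  rwa [h4]

/-- Convergence of the moments gives convergence in law. -/
theorem law {J : ℝ} (hJ : 0 < J) {C : Pts → ℝ}
    (h0 : ∀ μ₀, IsPlaneState J 0 (fun _ => 0) (Kc / J) μ₀ → Mom μ₀ 1 C) {Z : ℝ}
    (h : Mom μ Z C) : Law μ Z C := by
  intro k f hf
  obtain ⟨μ₀, hp, hm, hE⟩ := free_em hJ h0
  have hX : ∀ a, Measurable fun σ =>
      (WithLp.toLp 2 fun i => smear a (f i) σ : EuclideanSpace ℝ (Fin k)) := fun a =>
    (PiLp.continuous_toLp 2 _).measurable.comp
      (measurable_pi_iff.2 fun i => (smear_meas (hf i) a).1)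
  let P : ℝ → ProbabilityMeasure (EuclideanSpace ℝ (Fin k)) := fun a =>
    ⟨μ.map fun σ => WithLp.toLp 2 fun i => smear a (f i) σ,
      Measure.isProbabilityMeasure_map (hX a).aemeasurable⟩
  have hP : ∀ a (F : EuclideanSpace ℝ (Fin k) → ℝ), Continuous F → ∫ y, F y ∂(P a)
      = ∫ σ, F (WithLp.toLp 2 fun i => smear a (f i) σ) ∂μ := fun a F hF =>
    integral_map (hX a).aemeasurable hF.aestronglyMeasurable
  let I : ∀ n : ℕ, (Fin n → Fin k) → ℝ := fun n i =>
    ∫ x : Fin n → ℂ, (∏ j, f (i j) (x j)) * C ⟨n, 0, x, ![], ![]⟩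
  refine Exists.elim (moments (l := 𝓝[>] (0:ℝ)) P (fun n i => if n = 0 then 1 else Z ^ n * I n i)
    (fun a n i => ?_) (fun n i => ?_) (fun t => ?_)) fun ν hν => ?_
  rotate_right
  · obtain ⟨h1, h2, h3⟩ := hν
    refine ⟨ν, ⟨inferInstance, fun n hn i => ?_⟩, fun ν' h' => ?_, fun F => ?_⟩
    · simpa only [if_neg hn.ne'] using h1 n i
    · have := h'.1
      refine congrArg Subtype.val (h2 ⟨ν', h'.1⟩ fun n i => ?_)
      rcases Nat.eq_zero_or_pos n with rfl | hn
      · simp
      · rw [if_neg hn.ne']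
        exact h'.2 n hn i
    · simpa only [hP _ F F.continuous] using
        ProbabilityMeasure.tendsto_iff_forall_integral_tendsto.1 h3 F
  · exact (integrable_map_measure (by fun_prop) (hX a).aemeasurable).2
      ((BM.prod Finset.univ fun j => smear_meas (hf (i j)) a).int μ)
  · simp only [fun a => hP a (fun y => ∏ j, y (i j)) (by fun_prop)]
    rcases Nat.eq_zero_or_pos n with rfl | hn
    · simp
    · rw [if_neg hn.ne']
      exact (h n hn (fun j => f (i j)) fun j => hf _).2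
  · refine ((EM.sum Finset.univ fun i => (hE _ (hf i)).smul (t i)).smul Z).growth fun q hq => ?_
    have e : ∀ a, ∫ σ, (Z * ∑ i, t i * smear a (f i) σ) ^ (2 * q) ∂μ₀
        = ∑ i : Fin (2 * q) → Fin k, (∏ j, t (i j)) *
          (Z ^ (2 * q) * ∫ σ, ∏ j, smear a (f (i j)) σ ∂μ₀) := by
      intro a
      have e1 : ∀ σ, (Z * ∑ i, t i * smear a (f i) σ) ^ (2 * q)
          = ∑ i : Fin (2 * q) → Fin k, ((∏ j, t (i j)) * Z ^ (2 * q)) *
            ∏ j, smear a (f (i j)) σ := by
        intro σ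
        rw [mul_pow, Fintype.sum_pow, Finset.mul_sum]
        refine Finset.sum_congr rfl fun i _ => ?_
        rw [Finset.prod_mul_distrib]
        ring
      have e2 : ∀ i : Fin (2 * q) → Fin k, Integrable (fun σ => ∏ j, smear a (f (i j)) σ) μ₀ :=
        fun i => (BM.prod (X := fun j => smear a (f (i j))) Finset.univ fun j =>
          smear_meas (hf (i j)) a).int μ₀
      simp only [e1]
      rw [integral_finsetSum _ fun i _ => (e2 i).const_mul _]
      refine Finset.sum_congr rfl fun i _ => ?_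
      rw [integral_const_mul, mul_assoc]
    simp only [e, if_neg (show 2 * q ≠ 0 by omega)]
    refine tendsto_finsetSum _ fun i _ => Tendsto.const_mul _ (Tendsto.const_mul _ ?_)
    simpa only [one_pow, one_mul] using (hm (2 * q) (by omega) (fun j => f (i j)) fun j => hf _).2

end Vale.Agent.P144F58
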