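import Mathlib.MeasureTheory.Measure.LevyConvergence
import Mathlib.MeasureTheory.Measure.Prokhorov
import Mathlib.MeasureTheory.Measure.Portmanteau
import Mathlib.MeasureTheory.Measure.LevyProkhorovMetric
import Mathlib.Analysis.Calculus.MeanValue

/-!
The method of moments.
-/

namespace Vale.Agent.P144F58

open Filter Topology MeasureTheory Complex
open scoped RealInnerProductSpace Nat

/-- The Taylor remainder of `exp (i s)`. -/
theorem exp_rem (s : ℝ) (n : ℕ) : ∀ u ∈ Set.Icc (0:ℝ) 1,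
    ‖cexp ((u * s : ℝ) * I) - ∑ j ∈ Finset.range n, ((u * s : ℝ) * I) ^ j / (j ! : ℂ)‖
      ≤ |s| ^ n * u ^ n / n ! := by
  induction n with
  | zero =>
    intro u _
    simp only [Finset.range_zero, Finset.sum_empty, sub_zero, pow_zero, Nat.factorial_zero,
      Nat.cast_one, mul_one, div_one]
    rw [Complex.norm_exp_ofReal_mul_I]
  | succ n ih =>
    have hl : ∀ u : ℝ, HasDerivAt (fun u : ℝ => ((u * s : ℝ) : ℂ) * I) (s * I) u := by
      intro u
      have h1 : HasDerivAt (fun u : ℝ => u * s) s u := by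
        simpa using (hasDerivAt_id u).mul_const s
      exact h1.ofReal_comp.mul_const I
    have hd : ∀ u : ℝ, HasDerivAt (fun u : ℝ => cexp ((u * s : ℝ) * I)
        - ∑ j ∈ Finset.range (n + 1), ((u * s : ℝ) * I) ^ j / (j ! : ℂ))
        ((s * I) * (cexp ((u * s : ℝ) * I)
          - ∑ j ∈ Finset.range n, ((u * s : ℝ) * I) ^ j / (j ! : ℂ))) u := by
      intro u
      have h1 := (hl u).cexp
      have h2 : HasDerivAt (fun u : ℝ => ∑ j ∈ Finset.range (n + 1),
          (((u * s : ℝ) : ℂ) * I) ^ j / (j ! : ℂ))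
          (∑ j ∈ Finset.range (n + 1),
            ((j : ℂ) * (((u * s : ℝ) : ℂ) * I) ^ (j - 1) * (s * I)) / (j ! : ℂ)) u :=
        HasDerivAt.fun_sum fun j _ => ((hl u).fun_pow j).div_const _
      refine (h1.sub h2).congr_deriv ?_
      rw [Finset.sum_range_succ', mul_sub, Finset.mul_sum]
      simp only [Nat.cast_zero, zero_mul, zero_div, add_zero, Nat.add_sub_cancel]
      congr 1
      · ring
      · refine Finset.sum_congr rfl fun j _ => ?_
        have h3 : ((j : ℂ) + 1) ≠ 0 := by exact_mod_cast Nat.succ_ne_zero j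
        have h4 : (j ! : ℂ) ≠ 0 := by exact_mod_cast j.factorial_ne_zero
        rw [Nat.factorial_succ]
        push_cast
        field_simp
    have hB : ∀ u : ℝ, HasDerivAt (fun u : ℝ => |s| ^ (n + 1) * u ^ (n + 1) / (n + 1)!)
        (|s| * (|s| ^ n * u ^ n / n !)) u := by
      intro u
      refine (((hasDerivAt_pow (n + 1) u).const_mul (|s| ^ (n + 1))).div_const _).congr_deriv ?_
      have h3 : ((n : ℝ) + 1) ≠ 0 := by positivity
      have h4 : (n ! : ℝ) ≠ 0 := by positivity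
      rw [Nat.factorial_succ]
      push_cast
      field_simp
      ring
    intro u hu
    refine image_norm_le_of_norm_deriv_right_le_deriv_boundary
      (fun x _ => (hd x).continuousAt.continuousWithinAt) (fun x _ => (hd x).hasDerivWithinAt)
      ?_ hB (fun x hx => ?_) hu
    · simp [Finset.sum_range_succ']
    · rw [norm_mul, norm_mul, Complex.norm_I, mul_one, Complex.norm_real, Real.norm_eq_abs]
      exact mul_le_mul_of_nonneg_left (ih x ⟨hx.1, hx.2.le⟩) (abs_nonneg s)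

variable {E : Type*} [NormedAddCommGroup E] [InnerProductSpace ℝ E] [FiniteDimensional ℝ E]
  [MeasurableSpace E] [BorelSpace E]

omit [FiniteDimensional ℝ E] in
theorem charFun_rem (μ : Measure E) [IsProbabilityMeasure μ] (t : E)
    (hi : ∀ n : ℕ, Integrable (fun y => ⟪y, t⟫ ^ n) μ) (k : ℕ) :
    ‖charFun μ t - ∑ j ∈ Finset.range (2 * k), ((∫ y, ⟪y, t⟫ ^ j ∂μ : ℝ) : ℂ) * (I ^ j / (j ! : ℂ))‖
      ≤ (∫ y, ⟪y, t⟫ ^ (2 * k) ∂μ) / (2 * k)! := by
  have h1 : ∀ j : ℕ, Integrable (fun y => ((⟪y, t⟫ ^ j : ℝ) : ℂ) * (I ^ j / (j ! : ℂ))) μ :=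
    fun j => (hi j).ofReal.mul_const _
  have h0 : Integrable (fun y => cexp ((⟪y, t⟫ : ℝ) * I)) μ := by
    refine Integrable.of_bound (by fun_prop) 1 (Eventually.of_forall fun y => ?_)
    rw [Complex.norm_exp_ofReal_mul_I]
  have h2 : charFun μ t
      - ∑ j ∈ Finset.range (2 * k), ((∫ y, ⟪y, t⟫ ^ j ∂μ : ℝ) : ℂ) * (I ^ j / (j ! : ℂ))
      = ∫ y, (cexp ((⟪y, t⟫ : ℝ) * I) - ∑ j ∈ Finset.range (2 * k),
        ((⟪y, t⟫ ^ j : ℝ) : ℂ) * (I ^ j / (j ! : ℂ))) ∂μ := by
    rw [integral_sub h0 (integrable_finsetSum _ fun j _ => h1 j),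
      integral_finsetSum _ fun j _ => h1 j, charFun_apply]
    congr 1
    refine Finset.sum_congr rfl fun j _ => ?_
    rw [integral_mul_const, integral_complex_ofReal]
  rw [h2, ← integral_div]
  refine norm_integral_le_of_norm_le ((hi _).div_const _) (Eventually.of_forall fun y => ?_)
  have h3 := exp_rem ⟪y, t⟫ (2 * k) 1 ⟨zero_le_one, le_rfl⟩
  rw [one_mul, one_pow, mul_one, (even_two_mul k).pow_abs] at h3
  refine le_trans (le_of_eq ?_) h3
  congr 2
  refine Finset.sum_congr rfl fun j _ => ?_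
  push_cast
  ring

omit [FiniteDimensional ℝ E] in
/-- Convergence of the moments gives convergence of the characteristic function. -/
theorem tendsto_charFun {α : Type*} {l : Filter α} (μ : α → ProbabilityMeasure E)
    (ν : ProbabilityMeasure E) (t : E)
    (hi : ∀ᶠ a in l, ∀ n : ℕ, Integrable (fun y => ⟪y, t⟫ ^ n) (μ a))
    (hν : ∀ n : ℕ, Integrable (fun y => ⟪y, t⟫ ^ n) ν)
    (hm : ∀ n : ℕ, Tendsto (fun a => ∫ y, ⟪y, t⟫ ^ n ∂(μ a)) l (𝓝 (∫ y, ⟪y, t⟫ ^ n ∂ν)))
    (hg : Tendsto (fun k : ℕ => (∫ y, ⟪y, t⟫ ^ (2 * k) ∂ν) / (2 * k)!) atTop (𝓝 0)) :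
    Tendsto (fun a => charFun (μ a) t) l (𝓝 (charFun ν t)) := by
  rw [Metric.tendsto_nhds]
  intro ε hε
  obtain ⟨k, hk⟩ := (hg.eventually (gt_mem_nhds (show (0:ℝ) < ε / 3 by positivity))).exists
  have h1 : Tendsto (fun a => ∑ j ∈ Finset.range (2 * k),
      ((∫ y, ⟪y, t⟫ ^ j ∂(μ a) : ℝ) : ℂ) * (I ^ j / (j ! : ℂ))) l
      (𝓝 (∑ j ∈ Finset.range (2 * k), ((∫ y, ⟪y, t⟫ ^ j ∂ν : ℝ) : ℂ) * (I ^ j / (j ! : ℂ)))) :=
    tendsto_finsetSum _ fun j _ =>
      ((Complex.continuous_ofReal.tendsto _).comp (hm j)).mul_const _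
  have h2 := ((hm (2 * k)).div_const ((2 * k)! : ℝ)).eventually (gt_mem_nhds hk)
  filter_upwards [hi, h2, Metric.tendsto_nhds.1 h1 (ε / 3) (by positivity)] with a ha h2 h3
  have h4 := charFun_rem (μ a) t ha k
  have h5 := charFun_rem ν t hν k
  rw [← dist_eq_norm] at h4 h5
  have h6 := dist_triangle4 (charFun (μ a) t)
    (∑ j ∈ Finset.range (2 * k), ((∫ y, ⟪y, t⟫ ^ j ∂(μ a) : ℝ) : ℂ) * (I ^ j / (j ! : ℂ)))
    (∑ j ∈ Finset.range (2 * k), ((∫ y, ⟪y, t⟫ ^ j ∂ν : ℝ) : ℂ) * (I ^ j / (j ! : ℂ)))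
    (charFun ν t)
  rw [dist_comm] at h5
  linarith

omit [InnerProductSpace ℝ E] [FiniteDimensional ℝ E] in
/-- Weak convergence and bounded second moments give convergence of the first moments. -/
theorem integral_of_weak {μ : ℕ → ProbabilityMeasure E} {ν : ProbabilityMeasure E}
    (h : Tendsto μ atTop (𝓝 ν)) {g : E → ℝ} (hg : Continuous g) {c d : ℝ}
    (hi : ∀ n, Integrable (fun y => g y ^ 2) (μ n))
    (hc : Tendsto (fun n => ∫ y, g y ∂(μ n)) atTop (𝓝 c))
    (hd : Tendsto (fun n => ∫ y, g y ^ 2 ∂(μ n)) atTop (𝓝 d)) :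
    Integrable g ν ∧ ∫ y, g y ∂ν = c := by
  have sq_int : ∀ ρ : ProbabilityMeasure E, Integrable (fun y => g y ^ 2) ρ → Integrable g ρ := by
    intro ρ hρ
    refine Integrable.mono' (hρ.add (integrable_const 1)) hg.aestronglyMeasurable
      (Eventually.of_forall fun y => ?_)
    simp only [Real.norm_eq_abs, Pi.add_apply]
    nlinarith [sq_nonneg (|g y| - 1), sq_abs (g y), abs_nonneg (g y)]
  have h1 := lintegral_le_liminf_lintegral_of_forall_isOpen_measure_le_liminf_measure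
    (μ := (ν : Measure E)) (μs := fun n => (μ n : Measure E)) (f := fun y => g y ^ 2)
    (hg.pow 2) (fun y => sq_nonneg _)
    (fun G hG => ProbabilityMeasure.le_liminf_measure_open_of_tendsto h hG)
  have h2 : ∀ n, ∫⁻ y, ENNReal.ofReal (g y ^ 2) ∂(μ n) = ENNReal.ofReal (∫ y, g y ^ 2 ∂(μ n)) :=
    fun n => (ofReal_integral_eq_lintegral_ofReal (hi n)
      (Eventually.of_forall fun y => sq_nonneg _)).symm
  simp only [h2] at h1
  rw [(ENNReal.tendsto_ofReal hd).liminf_eq] at h1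
  have h3 : Integrable (fun y => g y ^ 2) ν :=
    ⟨(hg.pow 2).aestronglyMeasurable, by
      rw [hasFiniteIntegral_iff_ofReal (Eventually.of_forall fun y => sq_nonneg _)]
      exact h1.trans_lt ENNReal.ofReal_lt_top⟩
  refine ⟨sq_int ν h3, ?_⟩
  have key : ∀ R > 0, |∫ y, g y ∂ν - c| ≤ (∫ y, g y ^ 2 ∂ν + d) / R := by
    intro R hR
    let G : BoundedContinuousFunction E ℝ := BoundedContinuousFunction.ofNormedAddCommGroup
      (fun y => max (-R) (min R (g y))) (by fun_prop) R (fun y => by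
        rw [Real.norm_eq_abs, abs_le]
        exact ⟨le_max_left _ _, max_le (by linarith) (min_le_left _ _)⟩)
    have hG : ∀ ρ : ProbabilityMeasure E, Integrable (fun y => g y ^ 2) ρ →
        |∫ y, g y ∂ρ - ∫ y, G y ∂ρ| ≤ (∫ y, g y ^ 2 ∂ρ) / R := by
      intro ρ hρ
      rw [← integral_sub (sq_int ρ hρ) (G.integrable _), ← integral_div, ← Real.norm_eq_abs]
      refine norm_integral_le_of_norm_le (hρ.div_const _) (Eventually.of_forall fun y => ?_)
      change |g y - max (-R) (min R (g y))| ≤ g y ^ 2 / R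
      rw [le_div_iff₀ hR]
      rcases le_total R (g y) with h1 | h1
      · rw [min_eq_left h1, max_eq_right (by linarith), abs_of_nonneg (by linarith)]
        nlinarith
      · rw [min_eq_right h1]
        rcases le_total (-R) (g y) with h2 | h2
        · rw [max_eq_right h2, sub_self, abs_zero, zero_mul]
          exact sq_nonneg _
        · rw [max_eq_left h2, abs_of_nonpos (by linarith)]
          nlinarith
    have h4 := (ProbabilityMeasure.tendsto_iff_forall_integral_tendsto.1 h) G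
    have h5 : |c - ∫ y, G y ∂ν| ≤ d / R :=
      le_of_tendsto_of_tendsto' (hc.sub h4).abs (hd.div_const R) fun n => hG _ (hi n)
    have h6 := hG ν h3
    rw [add_div]
    have h7 := abs_sub_le (∫ y, g y ∂ν) (∫ y, G y ∂ν) c
    rw [abs_sub_comm] at h5
    linarith
  have h8 : Tendsto (fun R : ℝ => (∫ y, g y ^ 2 ∂ν + d) / R) atTop (𝓝 0) :=
    tendsto_const_nhds.div_atTop tendsto_id
  have h9 : |∫ y, g y ∂ν - c| ≤ 0 :=
    ge_of_tendsto h8 ((eventually_gt_atTop 0).mono key)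
  exact sub_eq_zero.1 (abs_nonpos_iff.1 h9)

/-- Bounded second moments give a weakly convergent subsequence. -/
theorem exists_subseq (μ : ℕ → ProbabilityMeasure E)
    (hi : ∀ n (t : E), Integrable (fun y : E => ⟪y, t⟫ ^ 2) (μ n))
    (hd : ∀ t : E, ∃ d, Tendsto (fun n => ∫ y : E, ⟪y, t⟫ ^ 2 ∂(μ n)) atTop (𝓝 d)) :
    ∃ ν : ProbabilityMeasure E, ∃ ψ : ℕ → ℕ, StrictMono ψ ∧ Tendsto (μ ∘ ψ) atTop (𝓝 ν) := by
  have ht : IsTightMeasureSet (Set.range fun n => (μ n : Measure E)) := by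
    refine isTightMeasureSet_range_of_tendsto_limsup_inner ℝ fun t => ?_
    obtain ⟨d, hd⟩ := hd t
    have h1 : Tendsto (fun r : ℝ => ENNReal.ofReal ((d + 1) / r ^ 2)) atTop (𝓝 0) := by
      rw [← ENNReal.ofReal_zero]
      exact ENNReal.tendsto_ofReal
        (tendsto_const_nhds.div_atTop (tendsto_pow_atTop two_ne_zero))
    refine tendsto_of_tendsto_of_tendsto_of_le_of_le' tendsto_const_nhds h1
      (Eventually.of_forall fun _ => zero_le) ?_
    filter_upwards [eventually_gt_atTop 0] with r hr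
    refine limsup_le_of_le (by isBoundedDefault) ?_
    filter_upwards [hd.eventually (gt_mem_nhds (lt_add_one d))] with n hn
    have h2 := mul_meas_ge_le_integral_of_nonneg (Eventually.of_forall fun y => sq_nonneg _)
      (hi n t) (r ^ 2)
    have h3 : (μ n : Measure E) {x | r < ‖⟪t, x⟫‖} ≤ (μ n : Measure E) {x | r ^ 2 ≤ ⟪x, t⟫ ^ 2} := by
      refine measure_mono fun x hx => ?_
      have hx' : r < |⟪t, x⟫| := hx
      change r ^ 2 ≤ ⟪x, t⟫ ^ 2
      rw [real_inner_comm, ← sq_abs ⟪t, x⟫]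
      nlinarith
    refine h3.trans ?_
    rw [← ofReal_measureReal]
    refine ENNReal.ofReal_le_ofReal ?_
    rw [le_div_iff₀ (by positivity), mul_comm]
    exact h2.trans hn.le
  have hc := isCompact_closure_of_isTightMeasureSet (S := Set.range μ) (by
    refine ht.subset ?_
    rintro _ ⟨_, ⟨n, rfl⟩, rfl⟩
    exact ⟨n, rfl⟩)
  obtain ⟨ν, -, ψ, hψ, h⟩ := hc.tendsto_subseq fun n => subset_closure ⟨n, rfl⟩
  exact ⟨ν, ψ, hψ, h⟩

theorem inner_pow {k : ℕ} (y t : EuclideanSpace ℝ (Fin k)) (n : ℕ) :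
    ⟪y, t⟫ ^ n = ∑ i : Fin n → Fin k, (∏ j, t (i j)) * ∏ j, y (i j) := by
  rw [PiLp.inner_apply, Fintype.sum_pow]
  refine Finset.sum_congr rfl fun i _ => ?_
  rw [← Finset.prod_mul_distrib]
  refine Finset.prod_congr rfl fun j _ => ?_
  simp

theorem prod_sq {k n : ℕ} (y : EuclideanSpace ℝ (Fin k)) (i : Fin n → Fin k) :
    (∏ j, y (i j)) ^ 2 = ∏ j : Fin (n + n), y (Fin.append i i j) := by
  rw [Fin.prod_univ_add, sq]
  simp only [Fin.append_left, Fin.append_right]

/-- The method of moments. -/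
theorem moments {k : ℕ} {α : Type*} {l : Filter α} [l.NeBot] [l.IsCountablyGenerated]
    (μ : α → ProbabilityMeasure (EuclideanSpace ℝ (Fin k))) (m : ∀ n : ℕ, (Fin n → Fin k) → ℝ)
    (hi : ∀ a n (i : Fin n → Fin k),
      Integrable (fun y : EuclideanSpace ℝ (Fin k) => ∏ j, y (i j)) (μ a))
    (hm : ∀ n i, Tendsto (fun a => ∫ y : EuclideanSpace ℝ (Fin k), ∏ j, y (i j) ∂(μ a)) l (𝓝 (m n i)))
    (hg : ∀ t : EuclideanSpace ℝ (Fin k), Tendsto (fun q : ℕ =>
      (∑ i : Fin (2 * q) → Fin k, (∏ j, t (i j)) * m (2 * q) i) / (2 * q)!) atTop (𝓝 0)) :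
    ∃ ν : ProbabilityMeasure (EuclideanSpace ℝ (Fin k)),
      (∀ n (i : Fin n → Fin k), Integrable (fun y : EuclideanSpace ℝ (Fin k) => ∏ j, y (i j)) ν ∧
        ∫ y : EuclideanSpace ℝ (Fin k), ∏ j, y (i j) ∂ν = m n i) ∧
      (∀ ν' : ProbabilityMeasure (EuclideanSpace ℝ (Fin k)), (∀ n (i : Fin n → Fin k),
        Integrable (fun y : EuclideanSpace ℝ (Fin k) => ∏ j, y (i j)) ν' ∧
        ∫ y : EuclideanSpace ℝ (Fin k), ∏ j, y (i j) ∂ν' = m n i) → ν' = ν) ∧
      Tendsto μ l (𝓝 ν) := by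
  have A : ∀ ρ : ProbabilityMeasure (EuclideanSpace ℝ (Fin k)), (∀ n (i : Fin n → Fin k),
      Integrable (fun y : EuclideanSpace ℝ (Fin k) => ∏ j, y (i j)) ρ) → ∀ t (n : ℕ),
      Integrable (fun y : EuclideanSpace ℝ (Fin k) => ⟪y, t⟫ ^ n) ρ ∧ ∫ y : EuclideanSpace ℝ (Fin k), ⟪y, t⟫ ^ n ∂ρ
        = ∑ i : Fin n → Fin k, (∏ j, t (i j)) * ∫ y : EuclideanSpace ℝ (Fin k), ∏ j, y (i j) ∂ρ := by
    intro ρ h t n
    simp only [inner_pow]
    refine ⟨integrable_finsetSum _ fun i _ => (h n i).const_mul _, ?_⟩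
    rw [integral_finsetSum _ fun i _ => (h n i).const_mul _]
    simp only [integral_const_mul]
  have B : ∀ t (n : ℕ), Tendsto (fun a => ∫ y : EuclideanSpace ℝ (Fin k), ⟪y, t⟫ ^ n ∂(μ a)) l
      (𝓝 (∑ i : Fin n → Fin k, (∏ j, t (i j)) * m n i)) := by
    intro t n
    simp only [fun a => (A (μ a) (hi a) t n).2]
    exact tendsto_finsetSum _ fun i _ => (hm n i).const_mul _
  obtain ⟨u, hu⟩ := l.exists_seq_tendsto
  obtain ⟨ν, ψ, hψ, hν⟩ := exists_subseq (μ ∘ u) (fun n t => (A _ (hi _) t 2).1)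
    fun t => ⟨_, (B t 2).comp hu⟩
  have hv : Tendsto (u ∘ ψ) atTop l := hu.comp hψ.tendsto_atTop
  have M : ∀ n (i : Fin n → Fin k),
      Integrable (fun y : EuclideanSpace ℝ (Fin k) => ∏ j, y (i j)) ν ∧
        ∫ y : EuclideanSpace ℝ (Fin k), ∏ j, y (i j) ∂ν = m n i := by
    intro n i
    refine integral_of_weak hν (by fun_prop) (d := m (n + n) (Fin.append i i)) (fun q => ?_)
      ((hm n i).comp hv) ?_
    · simp only [prod_sq]
      exact hi _ _ _
    · simp only [prod_sq]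
      exact (hm _ _).comp hv
  have N : ∀ t (n : ℕ), ∫ y : EuclideanSpace ℝ (Fin k), ⟪y, t⟫ ^ n ∂ν
      = ∑ i : Fin n → Fin k, (∏ j, t (i j)) * m n i := by
    intro t n
    simp only [(A ν (fun n i => (M n i).1) t n).2, fun i => (M n i).2]
  refine ⟨ν, M, fun ν' h => ?_, ?_⟩
  · refine ProbabilityMeasure.toMeasure_injective (Measure.ext_of_charFun (funext fun t => ?_))
    refine tendsto_const_nhds_iff.1 (tendsto_charFun (l := (atTop : Filter ℕ)) (fun _ => ν') ν t
      (Eventually.of_forall fun _ n => (A ν' (fun n i => (h n i).1) t n).1)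
      (fun n => (A ν (fun n i => (M n i).1) t n).1) (fun n => ?_) ?_)
    · rw [N, (A ν' (fun n i => (h n i).1) t n).2]
      simp only [fun i => (h n i).2]
      exact tendsto_const_nhds
    · simp only [N]
      exact hg t
  · refine tendsto_of_seq_tendsto fun v hv => ?_
    refine ProbabilityMeasure.tendsto_of_tendsto_charFun fun t => ?_
    refine (tendsto_charFun μ ν t (Eventually.of_forall fun a n => (A _ (hi a) t n).1)
      (fun n => (A ν (fun n i => (M n i).1) t n).1) (fun n => ?_) ?_).comp hv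
    · rw [N]
      exact B t n
    · simp only [N]
      exact hg t

end Vale.Agent.P144F58
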